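import Vale.Agent.P007.Obstruction
import Vale.Agent.P007.Family

namespace Vale.Agent.Results.P007.PacketsCompositeDegree

open MeasureTheory Filter Topology Vale.Agent.P007 NumberField

/-- For every composite `n ≥ 4` there are totally real fields of degree `n` with discriminants
tending to infinity whose maximal-order packets all vanish against one fixed test function with
positive integral for every invariant probability measure. -/
theorem result (n : ℕ) (hn : 4 ≤ n) (hc : ¬ n.Prime) :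
    ∃ (K : ℕ → Type) (_ : ∀ i, Field (K i)) (_ : ∀ i, NumberField (K i))
      (O : ∀ i, Subring (K i)) (σ : ∀ i, Fin n ≃ (K i →+* ℝ)),
      (∀ i, Module.finrank ℚ (K i) = n) ∧
      (∀ i (x : K i), x ∈ O i ↔ IsIntegral ℤ x) ∧
      Tendsto (fun i => orderDisc (O i)) atTop atTop ∧
      (∀ i, (packet (O i) (σ i)).Nonempty) ∧
      ∃ f : C(Space n, ℝ), HasCompactSupport f ∧ (∀ x, 0 ≤ f x) ∧ (∃ x, f x ≠ 0) ∧
        (∀ i, ∀ P ∈ packet (O i) (σ i), ∀ x ∈ P, f x = 0) ∧
        ∀ [MeasurableSpace (Space n)] [BorelSpace (Space n)] (m : Measure (Space n))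
          [IsProbabilityMeasure m],
          (∀ g : Matrix.SpecialLinearGroup (Fin n) ℝ, m.map (g • ·) = m) →
          0 < ∫ x, f x ∂m ∧
          ∀ μ : ℕ → Measure (Space n), (∀ i, IsProbabilityMeasure (μ i)) →
            (∀ i, μ i (⋃₀ packet (O i) (σ i))ᶜ = 0) →
            (∀ i, ∫ x, f x ∂μ i = 0) ∧
              ¬ Tendsto (fun i => ∫ x, f x ∂μ i) atTop (𝓝 (∫ x, f x ∂m)) := by
  obtain ⟨d, ⟨e, rfl⟩, hd2, hdn⟩ := (Nat.not_prime_iff_exists_dvd_lt (by omega)).1 hc
  have he2 : 2 ≤ e := by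
    by_contra h
    interval_cases e <;> omega
  obtain ⟨K, instF, instN, σ, ε, s, hdeg, hdisc, hs, hprod, j, k, hjk⟩ :=
    exists_family d e hd2 he2
  set a : Matrix.SpecialLinearGroup (Fin (d * e)) ℝ :=
    ⟨Matrix.diagonal s, by rw [Matrix.det_diagonal]; exact hprod⟩
  obtain ⟨x₀, hx₀⟩ := exists_notMem_fixedSet (a := a) rfl hjk
  obtain ⟨f, hfc, hfI, hf1, hf0⟩ := exists_testFunction hx₀
  have hsub : ∀ i, ∀ P ∈ packet (maxOrder (K i)) (σ i), P ⊆ fixedSet a := fun i P hP =>
    packet_subset_fixedSet (ε := (ε i : K i)) (ε i).2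
      (congrArg Matrix.diagonal (funext fun j => (hs i j).symm)) hP
  have hzero : ∀ i, ∀ P ∈ packet (maxOrder (K i)) (σ i), ∀ x ∈ P, f x = 0 :=
    fun i P hP x hx => hf0 x (hsub i P hP hx)
  refine ⟨K, instF, instN, fun i => maxOrder (K i), σ, hdeg, fun i x => Iff.rfl, ?_, ?_,
    f, hfc, fun x => (hfI x).1, ⟨x₀, by rw [hf1]; exact one_ne_zero⟩, hzero, ?_⟩
  · refine tendsto_atTop_mono (fun i => ?_) tendsto_id
    rw [orderDisc_maxOrder]
    exact (hdisc i).le
  · intro i
    exact packet_nonempty (by omega)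
      ((Module.finBasis ℤ (𝓞 (K i))).reindex (finCongr (by
        rw [RingOfIntegers.rank]; exact hdeg i))) (σ i)
  · intro _ _ m _ hm
    have hpos : 0 < ∫ x, f x ∂m :=
      integral_pos_of_invariant m hm f hfc (fun x => (hfI x).1)
        (x := x₀) (by rw [hf1]; exact one_ne_zero)
    refine ⟨hpos, fun μ _ hμ => ?_⟩
    have h0 : ∀ i, ∫ x, f x ∂μ i = 0 := by
      intro i
      refine integral_eq_zero_of_ae (ae_iff.2 (measure_mono_null ?_ (hμ i)))
      intro x hx hmem
      obtain ⟨P, hP, hxP⟩ := hmem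
      exact hx (hzero i P hP x hxP)
    refine ⟨h0, fun h => ?_⟩
    simp only [h0] at h
    exact hpos.ne' (tendsto_nhds_unique h tendsto_const_nhds)

end Vale.Agent.Results.P007.PacketsCompositeDegree
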